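import Vale.Agent.P269.G1I.Model
import Vale.Agent.P269.G1I.H598.Ser

/-!
# Powers of the Euler field: the matrix of multiplication, the origin
-/

namespace Vale.Agent.P269.G1.H276

open Vale.Agent.P269.CI

variable {X : CompleteIntersection} {F : ℕ → ℕ → List (Ins X) → ℂ}

theorem deg_ne (X : CompleteIntersection) : CI.deg X ≠ 0 := by
  unfold CI.deg
  rw [Nat.cast_ne_zero]
  apply List.prod_ne_zero
  intro h
  have := X.degs_pos 0 h
  omega

/-- evaluation at the origin -/
noncomputable abbrev ev0 (X : CompleteIntersection) : RR X →+* PowerSeries ℂ :=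
  MvPowerSeries.constantCoeff

theorem ev0_smul (c : ℂ) (f : RR X) : ev0 X (c • f) = c • ev0 X f := rfl

theorem ev0_ser (A : ℕ → List (Ins X) → ℂ) : ev0 X (ser A) = PowerSeries.mk fun d => A d [] := by
  unfold ser
  rw [ev0, H598.constantCoeff_toSer]
  rfl

theorem ev0_cor (g : ℕ) (P : List (Ins X)) :
    ev0 X (ser (cor F g P)) = PowerSeries.mk fun d => F g d P := by
  rw [ev0_ser]
  simp only [cor, List.append_nil]

/-- the index of the hyperplane class -/
def i1 (X : CompleteIntersection) : Fin (X.dim + 1) :=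
  ⟨1, by have := X.two_le_dim; omega⟩

theorem hcls_eq : ((hcls X, 0) : Ins X) = hpow X (i1 X) := rfl

/-- structure constants of the product with `h` at the origin -/
theorem ev0_qc (i j : Fin (X.dim + 1)) : ev0 X (qc F (i1 X) i j) = qmul F i j := by
  unfold qc qmul
  rw [map_sum, Matrix.of_apply]
  refine Finset.sum_congr rfl fun l _ => ?_
  rw [ev0_smul, ev0_cor, PowerSeries.smul_eq_C_mul, mul_comm, hcls_eq]

variable (hF : IsGW X F) (h1 : IsGenusOne F)

theorem ev0_Eu (k : Fin (X.dim + 1)) :
    ev0 X (Eu hF h1 k) = if k = i1 X then PowerSeries.C (index X : ℂ) else 0 := by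
  have h2 : (k = i1 X) ↔ ((k : ℕ) = 1) := by
    rw [Fin.ext_iff]; rfl
  change ev0 X ((1 - ((k : ℕ) : RR X)) * MvPowerSeries.X k +
    if (k : ℕ) = 1 then ((index X : ℤ) : RR X) else 0) = _
  rw [map_add, map_mul, MvPowerSeries.constantCoeff_X, mul_zero, zero_add]
  by_cases hk : k = i1 X
  · rw [if_pos hk, if_pos (h2.mp hk), map_intCast, map_intCast]
  · rw [if_neg hk, if_neg (fun h => hk (h2.mpr h)), map_zero]

/-- the matrix of multiplication by the Euler field -/
noncomputable def TT : Matrix (Fin (X.dim + 1)) (Fin (X.dim + 1)) (RR X) :=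
  Matrix.of fun i j => ∑ a, Eu hF h1 a * qc F a i j

theorem TT_apply (i j : Fin (X.dim + 1)) :
    TT hF h1 i j = ∑ a, Eu hF h1 a * qc F a i j := rfl

/-- the coordinates of the powers of the Euler field -/
theorem pow_coord (n : ℕ) (k : Fin (X.dim + 1)) :
    (Eu hF h1 ^ n : AA hF h1) k = ((TT hF h1) ^ n) 0 k := by
  induction n generalizing k with
  | zero =>
    rw [pow_zero, pow_zero, Matrix.one_apply]
    change (if k = 0 then (1 : RR X) else 0) = _
    by_cases hk : k = 0
    · subst hk; rfl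
    · rw [if_neg hk, if_neg (fun h => hk h.symm)]
  | succ n ih =>
    rw [pow_succ', pow_succ, Matrix.mul_apply, QA.mul_def, Finset.sum_comm]
    refine Finset.sum_congr rfl fun j _ => ?_
    rw [ih j, TT_apply, Finset.mul_sum]
    refine Finset.sum_congr rfl fun a _ => ?_
    rw [← ih j]
    change Eu hF h1 a * (Eu hF h1 ^ n : AA hF h1) j * qc F a j k = _
    ring

/-- the matrix of multiplication by the Euler field at the origin -/
theorem ev0_TT : (TT hF h1).map (ev0 X) = PowerSeries.C (index X : ℂ) • qmul F := by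
  ext1 i j
  rw [Matrix.map_apply, TT_apply, map_sum, Finset.sum_eq_single (i1 X)]
  · rw [map_mul, ev0_Eu, if_pos rfl, ev0_qc, Matrix.smul_apply, smul_eq_mul]
  · intro b _ hb
    rw [map_mul, ev0_Eu, if_neg hb, zero_mul]
  · simp

/-- the powers of the Euler field at the origin -/
theorem ev0_pow (n : ℕ) (k : Fin (X.dim + 1)) :
    ev0 X ((Eu hF h1 ^ n : AA hF h1) k) =
      PowerSeries.C ((index X : ℂ) ^ n) * ((qmul F) ^ n) 0 k := by
  rw [pow_coord]
  have h : ev0 X (((TT hF h1) ^ n) 0 k) = (((TT hF h1) ^ n).map (ev0 X)) 0 k := rfl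
  rw [h, Matrix.map_pow, ev0_TT, smul_pow, Matrix.smul_apply, smul_eq_mul, map_pow]

/-- integrals of products of powers of the hyperplane class -/
theorem integral_inl (a b c : Fin (X.dim + 1)) :
    integral X [Sum.inl a, Sum.inl b, Sum.inl c] =
      if (a : ℕ) + b + c = X.dim then CI.deg X else 0 := by
  unfold integral
  have h1 : ∀ x ∈ ([Sum.inl a, Sum.inl b, Sum.inl c] : List (Ix X)), ∃ j, x = Sum.inl j := by
    intro x hx
    simp only [List.mem_cons, List.not_mem_nil, or_false] at hx
    rcases hx with h | h | h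
    · exact ⟨_, h⟩
    · exact ⟨_, h⟩
    · exact ⟨_, h⟩
  have h2 : ∀ M : List (Ix X), (∀ x ∈ M, ∃ j, x = Sum.inl j) →
      ((M.filter (fun x => x ≠ one X)).map (hp X)).sum = (M.map (hp X)).sum := by
    intro M
    induction M with
    | nil => intro _; rfl
    | cons x M ih =>
      intro hM
      by_cases hx : x = one X
      · subst hx
        rw [List.filter_cons_of_neg (by simp), ih fun y hy => hM y (by simp [hy]),
          List.map_cons, List.sum_cons]
        simp [hp, one]
      · rw [List.filter_cons_of_pos (by simp [hx]), List.map_cons, List.sum_cons,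
          ih fun y hy => hM y (by simp [hy]), List.map_cons, List.sum_cons]
  have h3 := h2 _ h1
  have h4 : ∀ x ∈ ([Sum.inl a, Sum.inl b, Sum.inl c] : List (Ix X)).filter
      (fun x => x ≠ one X), ∃ j, x = Sum.inl j := fun x hx => h1 x (List.mem_of_mem_filter hx)
  have h5 : (([Sum.inl a, Sum.inl b, Sum.inl c] : List (Ix X)).map (hp X)).sum =
      (a : ℕ) + b + c := by
    simp [hp, add_assoc]
  rw [h5] at h3
  revert h3 h4
  generalize ([Sum.inl a, Sum.inl b, Sum.inl c] : List (Ix X)).filter (fun x => x ≠ one X) = M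
  intro h3 h4
  split
  · rename_i u v
    obtain ⟨j, hj⟩ := h4 (Sum.inr u) (by simp)
    simp at hj
  · rw [h3]
    by_cases h : (a : ℕ) + b + c = X.dim
    · rw [if_pos h, if_pos ⟨h4, h⟩]
    · rw [if_neg h, if_neg fun h6 => h h6.2]

/-- three-point functions of degree zero -/
theorem deg0 (hF : IsGW X F) (a b c : Fin (X.dim + 1)) :
    F 0 0 [hpow X a, hpow X b, hpow X c] = if (a : ℕ) + b + c = X.dim then CI.deg X else 0 := by
  have h := hF.degreeZero [Sum.inl a, Sum.inl b, Sum.inl c]
  simp only [List.map_cons, List.map_nil, List.length_cons, List.length_nil] at h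
  rw [if_pos trivial] at h
  rw [← integral_inl a b c]
  exact h

theorem pInv_inl (i j : Fin (X.dim + 1)) : pairingInv X (Sum.inl i) (Sum.inl j) =
    if (i : ℕ) + j = X.dim then (CI.deg X)⁻¹ else 0 := rfl

/-- the shift -/
def shN (X : CompleteIntersection) : Matrix (Fin (X.dim + 1)) (Fin (X.dim + 1)) ℂ :=
  Matrix.of fun i j => if (j : ℕ) = i + 1 then 1 else 0

include hF in
/-- the classical product with `h` -/
theorem cc_qmul : (qmul F).map (PowerSeries.constantCoeff (R := ℂ)) = shN X := by
  ext i j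
  have hd := deg_ne X
  rw [Matrix.map_apply]
  unfold qmul shN
  rw [Matrix.of_apply, Matrix.of_apply, map_sum]
  have hj := j.isLt
  have hi := i.isLt
  rw [Finset.sum_eq_single (⟨X.dim - j, by omega⟩ : Fin (X.dim + 1))]
  · rw [map_mul, PowerSeries.constantCoeff_C, hcls_eq, ← PowerSeries.coeff_zero_eq_constantCoeff,
      PowerSeries.coeff_mk, deg0 hF]
    rw [pInv_inl, if_pos (show X.dim - (j : ℕ) + j = X.dim by omega)]
    by_cases h : (j : ℕ) = i + 1
    · rw [if_pos h, if_pos (by simp only [i1]; omega), mul_inv_cancel₀ hd]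
    · rw [if_neg h, if_neg (by simp only [i1]; omega), zero_mul]
  · intro k _ hk
    have h2 : ¬ ((k : ℕ) + j = X.dim) := fun h =>
      hk (Fin.ext (show (k : ℕ) = X.dim - (j : ℕ) by omega))
    rw [pInv_inl, if_neg h2, map_mul, map_zero, map_zero, mul_zero]
  · simp

theorem shN_pow (n : ℕ) (k : Fin (X.dim + 1)) :
    ((shN X) ^ n) 0 k = if (k : ℕ) = n then 1 else 0 := by
  induction n generalizing k with
  | zero =>
    rw [pow_zero, Matrix.one_apply]
    by_cases hk : k = 0
    · subst hk; rw [if_pos rfl, if_pos (Fin.val_zero _)]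
    · rw [if_neg fun h => hk h.symm, if_neg]
      intro h
      exact hk (Fin.ext h)
  | succ n ih =>
    rw [pow_succ, Matrix.mul_apply]
    by_cases hk : (k : ℕ) = n + 1
    · have hkl := k.isLt
      rw [if_pos hk, Finset.sum_eq_single (⟨n, by omega⟩ : Fin (X.dim + 1))]
      · rw [ih, if_pos rfl, one_mul]
        exact if_pos hk
      · intro b _ hb
        rw [ih, if_neg (fun h => hb (Fin.ext h)), zero_mul]
      · simp
    · rw [if_neg hk]
      refine Finset.sum_eq_zero fun b _ => ?_
      rw [ih]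
      by_cases hb : (b : ℕ) = n
      · have h2 : shN X b k = 0 := by
          change (if (k : ℕ) = b + 1 then (1 : ℂ) else 0) = 0
          rw [if_neg (by omega)]
        rw [h2, mul_zero]
      · rw [if_neg hb, zero_mul]

/-- evaluation at `t = 0`, `q = 0` -/
noncomputable abbrev ev00 (X : CompleteIntersection) : RR X →+* ℂ :=
  (PowerSeries.constantCoeff (R := ℂ)).comp (ev0 X)

include hF in
theorem ev00_pow (n : ℕ) (k : Fin (X.dim + 1)) :
    ev00 X ((Eu hF h1 ^ n : AA hF h1) k) = if (k : ℕ) = n then (index X : ℂ) ^ n else 0 := by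
  rw [ev00, RingHom.comp_apply, ev0_pow, map_mul, PowerSeries.constantCoeff_C]
  have h : PowerSeries.constantCoeff (((qmul F) ^ n) 0 k) =
      (((qmul F) ^ n).map (PowerSeries.constantCoeff (R := ℂ))) 0 k := rfl
  rw [h, Matrix.map_pow, cc_qmul hF, shN_pow]
  by_cases hk : (k : ℕ) = n
  · rw [if_pos hk, if_pos hk, mul_one]
  · rw [if_neg hk, if_neg hk, mul_zero]

/-- the matrix of the coordinates of `1, E, ..., E^dim` -/
noncomputable def PM : Matrix (Fin (X.dim + 1)) (Fin (X.dim + 1)) (RR X) :=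
  Matrix.of fun i j => (Eu hF h1 ^ (j : ℕ) : AA hF h1) i

theorem PM_apply (i j : Fin (X.dim + 1)) :
    PM hF h1 i j = (Eu hF h1 ^ (j : ℕ) : AA hF h1) i := rfl

theorem ev00_PM : (PM hF h1).map (ev00 X) =
    Matrix.diagonal fun i : Fin (X.dim + 1) => (index X : ℂ) ^ (i : ℕ) := by
  ext i j
  rw [Matrix.map_apply, PM_apply, ev00_pow, Matrix.diagonal_apply]
  by_cases h : i = j
  · subst h
    rw [if_pos rfl, if_pos rfl]
  · rw [if_neg h, if_neg fun h2 => h (Fin.ext h2)]

theorem ev00_det (hi : index X ≠ 0) : ev00 X (PM hF h1).det ≠ 0 := by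
  rw [RingHom.map_det, RingHom.mapMatrix_apply, ev00_PM, Matrix.det_diagonal]
  refine Finset.prod_ne_zero_iff.mpr fun i _ => pow_ne_zero _ ?_
  exact_mod_cast hi

theorem isUnit_ev0_det (hi : index X ≠ 0) : IsUnit (ev0 X (PM hF h1).det) := by
  rw [PowerSeries.isUnit_iff_constantCoeff]
  exact isUnit_iff_ne_zero.mpr (ev00_det hF h1 hi)

theorem isUnit_det (hi : index X ≠ 0) : IsUnit (PM hF h1).det := by
  rw [MvPowerSeries.isUnit_iff_constantCoeff]
  exact isUnit_ev0_det hF h1 hi

/-- **[Q1]** -/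
theorem pow_basis (hi : index X ≠ 0) : ∃ b : Module.Basis (Fin (X.dim + 1)) (RR X) (AA hF h1),
    ∀ i, b i = Eu hF h1 ^ (i : ℕ) := by
  have hd : IsUnit ((QA.bas (consts hF h1)).det
      (fun i : Fin (X.dim + 1) => (Eu hF h1 ^ (i : ℕ) : AA hF h1))) := by
    rw [Module.Basis.det_apply]
    have h : (QA.bas (consts hF h1)).toMatrix
        (fun i : Fin (X.dim + 1) => (Eu hF h1 ^ (i : ℕ) : AA hF h1)) = PM hF h1 := by
      ext1 i j
      rw [Module.Basis.toMatrix_apply, PM_apply]
      rfl
    rw [h]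
    exact isUnit_det hF h1 hi
  obtain ⟨h2, h3⟩ := (Module.Basis.is_basis_iff_det (QA.bas (consts hF h1))).mpr hd
  exact ⟨Module.Basis.mk h2 h3.ge, fun i => Module.Basis.mk_apply h2 h3.ge i⟩

theorem sum_pred (l : List ℕ) (h : ∀ d ∈ l, 1 ≤ d) :
    (l.map fun d => d - 1).sum + l.length = l.sum := by
  induction l with
  | nil => rfl
  | cons a l ih =>
    have h2 := ih fun d hd => h d (by simp [hd])
    have h3 := h a (by simp)
    simp only [List.map_cons, List.sum_cons, List.length_cons]
    omega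

/-- **[Q0]** -/
theorem index_eq (X : CompleteIntersection) : index X = (X.dim : ℤ) + 1 - excess X := by
  unfold index excess
  have h := sum_pred X.degs X.degs_pos
  omega

/-- the constant `ν^ν ∏ d_i^{d_i}` -/
noncomputable def cq (X : CompleteIntersection) : ℂ :=
  (index X : ℂ) ^ (X.dim + 1 - excess X) * (X.degs.map fun d : ℕ => (d : ℂ) ^ d).prod

/-- the relation of degree `dim + 1` at the origin -/
theorem ev0_pow_top (hi : 2 ≤ index X) (k : Fin (X.dim + 1)) :
    ev0 X ((Eu hF h1 ^ (X.dim + 1) : AA hF h1) k) =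
      PowerSeries.C (cq X) * PowerSeries.X * ev0 X ((Eu hF h1 ^ excess X : AA hF h1) k) := by
  have h2 := index_eq X
  have h3 : X.dim + 1 = (X.dim + 1 - excess X) + excess X := by omega
  rw [ev0_pow, ev0_pow, h1.quantum hi k]
  have h4 : (index X : ℂ) ^ (X.dim + 1) =
      (index X : ℂ) ^ (X.dim + 1 - excess X) * (index X : ℂ) ^ excess X := by
    rw [← pow_add, ← h3]
  unfold cq
  rw [h4, map_mul, map_mul]
  ring

/-- **[Q2]** -/
theorem exists_poly (hi : 2 ≤ index X) : ∃ P : Polynomial (RR X), P.Monic ∧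
    P.natDegree = X.dim + 1 ∧ Polynomial.aeval (Eu hF h1) P = 0 ∧
    ∀ i < X.dim + 1, MvPowerSeries.constantCoeff (P.coeff i) =
      if i = excess X then - (PowerSeries.C (cq X) * PowerSeries.X) else 0 := by
  have hi0 : index X ≠ 0 := by omega
  obtain ⟨b, hb⟩ := pow_basis hF h1 hi0
  set E : AA hF h1 := Eu hF h1 with hE
  set p : Fin (X.dim + 1) → RR X := fun i => b.repr (E ^ (X.dim + 1)) i with hp
  set S : Polynomial (RR X) := ∑ i : Fin (X.dim + 1), Polynomial.C (p i) * Polynomial.X ^ (i : ℕ)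
    with hS
  have hdeg : S.degree < ((X.dim + 1 : ℕ) : WithBot ℕ) := Polynomial.degree_sum_fin_lt p
  have hdeg2 : S.degree < (Polynomial.X ^ (X.dim + 1) : Polynomial (RR X)).degree := by
    rw [Polynomial.degree_X_pow]; exact hdeg
  have hsum : E ^ (X.dim + 1) = ∑ i : Fin (X.dim + 1), p i • E ^ (i : ℕ) := by
    conv_lhs => rw [← b.sum_repr (E ^ (X.dim + 1))]
    exact Finset.sum_congr rfl fun i _ => by rw [hb i]
  have hcoef : ∀ i (hi : i < X.dim + 1), S.coeff i = p ⟨i, hi⟩ := by
    intro i hi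
    rw [hS, Polynomial.finsetSum_coeff, Finset.sum_eq_single (⟨i, hi⟩ : Fin (X.dim + 1))]
    · rw [Polynomial.coeff_C_mul, Polynomial.coeff_X_pow, if_pos rfl, mul_one]
    · intro c _ hc
      rw [Polynomial.coeff_C_mul, Polynomial.coeff_X_pow, if_neg, mul_zero]
      intro h
      exact hc (Fin.ext h.symm)
    · simp
  have hex : excess X < X.dim + 1 := by
    have := index_eq X
    omega
  -- the coefficients at the origin
  have hpi : ∀ i : Fin (X.dim + 1), ev0 X (p i) =
      if (i : ℕ) = excess X then PowerSeries.C (cq X) * PowerSeries.X else 0 := by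
    have hv : ((PM hF h1).map (ev0 X)).mulVec (fun i : Fin (X.dim + 1) => ev0 X (p i) -
        if (i : ℕ) = excess X then PowerSeries.C (cq X) * PowerSeries.X else 0) = 0 := by
      funext k
      rw [Pi.zero_apply]
      change ∑ i, ev0 X (PM hF h1 k i) * (ev0 X (p i) -
        if (i : ℕ) = excess X then PowerSeries.C (cq X) * PowerSeries.X else 0) = 0
      simp only [mul_sub, Finset.sum_sub_distrib, PM_apply]
      have h5 : ∑ i : Fin (X.dim + 1), ev0 X ((E ^ (i : ℕ) : AA hF h1) k) * ev0 X (p i) =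
          ev0 X ((E ^ (X.dim + 1) : AA hF h1) k) := by
        rw [hsum]
        have h6 : (∑ i : Fin (X.dim + 1), p i • E ^ (i : ℕ) : AA hF h1) k =
            ∑ i : Fin (X.dim + 1), p i * (E ^ (i : ℕ) : AA hF h1) k :=
          Finset.sum_apply (M := fun _ : Fin (X.dim + 1) => RR X) k Finset.univ
            (fun i => (p i • E ^ (i : ℕ) : AA hF h1))
        rw [h6, map_sum]
        refine Finset.sum_congr rfl fun i _ => ?_
        rw [map_mul, mul_comm]
      rw [h5, ev0_pow_top hF h1 hi k, Finset.sum_eq_single (⟨excess X, hex⟩ : Fin (X.dim + 1))]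
      · rw [if_pos rfl]
        ring
      · intro c _ hc
        rw [if_neg, mul_zero]
        intro h
        exact hc (Fin.ext h)
      · simp
    have hdet : ((PM hF h1).map (ev0 X)).det ≠ 0 := by
      have h7 : ((PM hF h1).map (ev0 X)).det = ev0 X (PM hF h1).det := by
        rw [RingHom.map_det, RingHom.mapMatrix_apply]
      rw [h7]
      exact (isUnit_ev0_det hF h1 hi0).ne_zero
    have h8 := Matrix.eq_zero_of_mulVec_eq_zero hdet hv
    intro i
    have h9 := congrFun h8 i
    exact sub_eq_zero.mp h9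
  refine ⟨Polynomial.X ^ (X.dim + 1) - S, ?_, ?_, ?_, ?_⟩
  · apply Polynomial.monic_X_pow_sub
    exact hdeg
  · apply Polynomial.natDegree_eq_of_degree_eq_some
    rw [Polynomial.degree_sub_eq_left_of_degree_lt hdeg2, Polynomial.degree_X_pow]
  · rw [map_sub, map_pow, Polynomial.aeval_X, hS, map_sum, hsum, sub_eq_zero]
    refine Finset.sum_congr rfl fun i _ => ?_
    rw [map_mul, Polynomial.aeval_C, map_pow, Polynomial.aeval_X, Algebra.smul_def]
  · intro i hi'
    rw [Polynomial.coeff_sub, Polynomial.coeff_X_pow, if_neg (by omega), hcoef i hi', zero_sub,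
      map_neg]
    have h10 := hpi ⟨i, hi'⟩
    rw [h10]
    by_cases h : i = excess X
    · rw [if_pos h, if_pos h]
    · rw [if_neg h, if_neg h, neg_zero]

end Vale.Agent.P269.G1.H276
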